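import Vale.Agent.P167.H446.G.Arith
import Vale.Agent.P167.H446.GeoT
import Vale.Agent.P167.H713.Q.Bad
import Vale.Agent.P167.H327.Geo6

/-!
# P167, general `q`, [HST-ST], part 1: the frame, the complement of the domain is connected
-/

set_option autoImplicit false

namespace Vale.Agent.P167.H653.St

open Set Metric Filter Topology
open Vale.Agent.P167.E6 Vale.Agent.P167.E2
open Vale.Agent.P167.H446.G (psr rt rt_ne norm_rt dist_rt)
open Vale.Agent.P167.H713.Q (Dn)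

/-- The frame of the squares with the origin at the site `v₀`. -/
noncomputable def frm (δ : ℝ) (v₀ : ℤ × ℤ) (z : ℂ) : ℂ := rt * z + -((H446.G.dl δ : ℂ) * pt v₀)

theorem psr_eq (δ : ℝ) (v₀ : ℤ × ℤ) (ψ : ℂ → ℂ) (z : ℂ) : psr δ v₀ ψ z = frm δ v₀ (ψ z) := rfl

theorem dist_frm (δ : ℝ) (v₀ : ℤ × ℤ) (z w : ℂ) : dist (frm δ v₀ z) (frm δ v₀ w) = dist z w := by
  unfold frm
  rw [dist_add_right, dist_rt]

theorem frm_inj (δ : ℝ) (v₀ : ℤ × ℤ) : Function.Injective (frm δ v₀) := by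
  intro z w h
  rw [← dist_eq_zero, ← dist_frm δ v₀, h, dist_self]

theorem isometry_frm (δ : ℝ) (v₀ : ℤ × ℤ) : Isometry (frm δ v₀) :=
  Isometry.of_dist_eq (dist_frm δ v₀)

/-- The frame as a homeomorphism. -/
noncomputable def frmH (δ : ℝ) (v₀ : ℤ × ℤ) : ℂ ≃ₜ ℂ :=
  (Homeomorph.mulLeft₀ rt rt_ne).trans (Homeomorph.addRight (-((H446.G.dl δ : ℂ) * pt v₀)))

theorem frmH_eq (δ : ℝ) (v₀ : ℤ × ℤ) : ⇑(frmH δ v₀) = frm δ v₀ := rfl

theorem frm_compl (δ : ℝ) (v₀ : ℤ × ℤ) (X : Set ℂ) : (frm δ v₀ '' X)ᶜ = frm δ v₀ '' Xᶜ := by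
  rw [← frmH_eq, image_compl_eq (frmH δ v₀).bijective]

theorem psr_image (δ : ℝ) (v₀ : ℤ × ℤ) (ψ : ℂ → ℂ) (X : Set ℂ) :
    psr δ v₀ ψ '' X = frm δ v₀ '' (ψ '' X) := by
  rw [image_image]
  rfl

variable {n : ℕ} {p : ZMod n → ℤ × ℤ} {k : ℕ} {S : Finset (ℤ × ℤ)} {A : Finset (Sym2 (ℤ × ℤ))}
  {j : ℕ} {δ : ℝ}

/-- The complement of the explored domain is connected. -/
theorem pc_Dn (hδ : 0 < δ) (hp : IsPolygon p) (hS : Encloses p S) :
    IsPreconnected (Dn p k S A j δ)ᶜ := by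
  have e : (Dn p k S A j δ)ᶜ = (Om δ S)ᶜ ∪ pl p k δ A '' Icc 0 (j : ℝ) := by
    unfold Dn
    rw [sdiff_eq, compl_inter, compl_compl]
  rw [e]
  have h1 : aM p δ ∈ (Om δ S)ᶜ := by
    have h := H327.aM_mem hδ hp hS
    rw [(H327.isOpen_Om hδ S).frontier_eq] at h
    exact h.2
  have h2 : aM p δ ∈ pl p k δ A '' Icc 0 (j : ℝ) :=
    ⟨0, ⟨le_rfl, Nat.cast_nonneg j⟩, pl_zero δ⟩
  exact IsPreconnected.union _ h1 h2 (H446.isPreconnected_compl_Om hδ hp hS)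
    (isPreconnected_Icc.image _ (continuous_pl δ).continuousOn)

theorem pc_frm (hδ : 0 < δ) (hp : IsPolygon p) (hS : Encloses p S) (v₀ : ℤ × ℤ) :
    IsPreconnected (frm δ v₀ '' Dn p k S A j δ)ᶜ := by
  rw [frm_compl]
  exact (pc_Dn hδ hp hS).image _ (isometry_frm δ v₀).continuous.continuousOn

end Vale.Agent.P167.H653.St
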