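import Vale.Agent.P167.H653.St.St
import Vale.Agent.P167.H397.K.Hst
import Vale.Agent.P167.H397.K.Ar
import Vale.Agent.P167.H918.FltS
import Vale.Agent.P167.SG.Cls4

/-!
# P167, general `q`, box (1): the situation `SG.Sat` for all histories

`sat_all`: from the obstacles (397), the standard properties (`hst_st`), `SG.sat_of` (991), with the
flat part and the teeth as hypotheses. `sat_row`: with the flat part and the teeth of 918. `sat_rs`: the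
radii `8 ⌈a s / δ⌉`, `⌊r / δ⌋` of the conflict pairs.
-/

set_option autoImplicit false
set_option linter.unusedSimpArgs false
set_option linter.unusedVariables false

namespace Vale.Agent.P167.H653.St

open Set Metric Filter Topology
open Vale.Agent.P167.E6 Vale.Agent.P167.E2
open Vale.Agent.P167.H192 (ro)
open Vale.Agent.P167.H411 (exn Set6)
open Vale.Agent.P167.H756 (Drv HConf hconf)
open Vale.Agent.P167.H446.G (psr Bef)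
open Vale.Agent.P167.H713.Q (Dn Sd tip Bad)
open Vale.Agent.P153.R2.L1 (HH)
open Vale.Agent.P164 (loewnerDomain)
open Vale.Agent.P167.SG (Bf Flt Sat Cst)
open Vale.Agent.P167.H397.K (Kf Obs)

variable {Φ : (ℝ × ℝ) ≃ₜ (ℝ × ℝ)} {ψ : ℂ → ℂ} {δ : ℕ → ℝ} {N k : ℕ → ℕ}
  {p : ∀ n, ZMod (N n) → ℤ × ℤ} {S : ℕ → Finset (ℤ × ℤ)} {ψn : ℕ → ℂ → ℂ}

theorem frm_eq (δ : ℝ) (v₀ : ℤ × ℤ) : H397.K.frm δ v₀ = frm δ v₀ := rfl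

/-- The uniformizers in the frame. -/
theorem hconf_psr (H : Set6 Φ ψ δ N k p S ψn) {Y : ℝ} (hY : 0 < Y) :
    ∃ Rd > 0, ∃ cd > 0, ∀ᶠ n in atTop, ∀ v₀ : ℤ × ℤ, HConf Rd cd Y (psr (δ n) v₀ (ψn n)) := by
  obtain ⟨Rd, hRd, cd, hcd, h⟩ := hconf H hY
  refine ⟨Rd, hRd, cd, hcd, ?_⟩
  filter_upwards [h] with n hn v₀
  have h1 := hn.affine H446.G.rt_ne (-((H446.G.dl (δ n) : ℂ) * pt v₀))
  rw [H446.G.norm_rt, one_mul, one_mul] at h1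
  exact h1

/-- The situation of the history `A`, `j` of colour `c` in the frame `v₀`. -/
def SatH (T R x3 xB τ κ x' xc ε η e ν X1 X3 : ℝ) (δ : ℕ → ℝ) (N k : ℕ → ℕ)
    (p : ∀ n, ZMod (N n) → ℤ × ℤ) (S : ℕ → Finset (ℤ × ℤ)) (ψn : ℕ → ℂ → ℂ) (n : ℕ) (v₀ : ℤ × ℤ)
    (ρ Rr : ℕ) (r₀ ρ' r' ℓ s₂ xb rf cg δ₀ : ℝ) (Gt : Set ℂ) (x₁ : ℂ) {κ' : Type} (Th : κ' → Set ℂ)
    (A : Finset (Sym2 (ℤ × ℤ))) (j : ℕ) (c : Bool) : Prop :=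
  Sat T R x3 xB τ κ x' xc ε η e ν X1 X3 (psr (δ n) v₀ (ψn n))
    ((exn δ N k p S ψn n).W A) ((exn δ N k p S ψn n).c A j) (sg c) xb rf cg δ₀ r₀ ρ' r' ℓ s₂
    Gt (H397.K.frm (δ n) v₀ '' Sd (p n) (k n) (S n) A j (δ n) c) x₁
    (H397.K.frm (δ n) v₀ (tip (p n) (k n) A j (δ n)))
    (Sum.elim (Kf (p n) (k n) (S n) A j (δ n) c ρ Rr v₀) Th)

/-- **Box (1)**, the flat part and the teeth as hypotheses. -/
theorem sat_all (H : Set6 Φ ψ δ N k p S ψn) {T R X1 X3 x3 xB τ κ x' xc ε η e ν : ℝ}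
    (hT : 0 ≤ T) (hR : 0 ≤ R) (h4R : 4 * (R + 1) ≤ X1) (h16 : 16 * (T + 1) ≤ X1 ^ 2)
    (hX3 : 1 ≤ X3) (hx3 : x3 = ((2 * X3) ^ 2 - 1) / ((2 * X3) ^ 2 + 1))
    (C : Cst x3 xB τ κ x' xc ε η e ν) :
    ∃ r₁ > 0, ∀ᶠ n in atTop, ∀ (v₀ : ℤ × ℤ) (ρ Rr : ℕ) (r₀ ρ' r' ℓ s₂ xb rf cg δ₀ : ℝ)
      (Gt : Set ℂ) (x₁ : ℂ), 32 ≤ ρ → 7 * ρ ≤ Rr → δ n * (Rr + 2) ≤ r₀ → δ n * (Rr + 2) ≤ r' →
      2 * ρ * δ n ≤ ρ' → 2 * ρ * δ n ≤ s₂ → 96 * ℓ ≤ δ n * ρ → 16 * (ρ * δ n) ≤ rf →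
      0 < ℓ → r₀ ≤ r₁ → ρ' ≤ r₁ → r' ≤ r₁ → s₂ ≤ r₁ → 40 * ℓ ≤ r₀ → 4 * δ₀ ≤ ℓ → δ₀ ≤ 3 * δ n →
      r₀ ≤ rf / 8 → 8 * ℓ < cg →
      Flt (psr (δ n) v₀ (ψn n)) xb rf cg X1 X3 δ₀ Gt x₁ →
      ∀ {κ' : Type} [Finite κ'] {Th : κ' → Set ℂ},
      (∀ i, Th i ⊆ psr (δ n) v₀ (ψn n) '' HH ∧ IsPreconnected (Th i) ∧ Th i ⊆ Bf xb rf) →
      (∀ i, ∀ x ∈ Th i, ∀ y ∈ Th i, dist x y ≤ s₂) →
      (∀ i, ∀ x ∈ Th i, x.im ≤ 0) →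
      (∀ i, ∃ s ∈ closure (Th i), s ∉ psr (δ n) v₀ (ψn n) '' HH) →
      (∀ x ∈ psr (δ n) v₀ (ψn n) '' HH, x ∈ Bf xb (rf / 2) → x.im ≤ 0 → ∃ i, x ∈ Th i) →
      ∀ (A : Finset (Sym2 (ℤ × ℤ))) (j : ℕ), Bef (exn δ N k p S ψn n) T R A j → ∀ c : Bool,
        SatH (T + 1) (R + 1) x3 xB τ κ x' xc ε η e ν X1 X3 δ N k p S ψn n v₀ ρ Rr r₀ ρ' r' ℓ s₂
          xb rf cg δ₀ Gt x₁ Th A j c := by
  set Y : ℝ := 8 * (R + 1) + 8 * (T + 1) with hYdef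
  have hY0 : 0 < Y := by positivity
  have hY : 8 * (R + 1) ≤ Y := by linarith
  have hY2 : 64 * (T + 1) ≤ Y ^ 2 := by nlinarith [mul_nonneg hR hT]
  obtain ⟨Rd, hRd, cd, hcd, hc⟩ := hconf_psr H hY0
  obtain ⟨r₁, hr₁, hsat⟩ := SG.sat_of (T := T + 1) (R := R + 1) hRd hcd hY0 hY hY2 h4R h16 hX3 hx3 C
  refine ⟨r₁, hr₁, ?_⟩
  filter_upwards [hc, hst_st H hT hR C.hν, H756.drv H hT hR zero_lt_one] with n hcn hst hdrv v₀ ρ Rr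
    r₀ ρ' r' ℓ s₂ xb rf cg δ₀ Gt x₁ g1 g2 g3 g4 g5 g6 g7 g8 g9 g10 g11 g12 g13 g14 g15 g16 g17 g18
    hF κ' _ Th t1 t2 t3 t4 t5 A j hB c
  obtain ⟨a1, a2, a3, a4, a5⟩ := H.appr.1 n
  obtain ⟨s1, s2, s3, s4⟩ := hst A j hB v₀
  obtain ⟨hd, hW0⟩ := hdrv A hB.1 j hB.2.1 hB.2.2
  have hfin := H397.K.finite_idx (p := p n) (k := k n) (S := S n) (A := A) (j := j) (c := c)
    (ρ := ρ) (R := Rr) a1
  have key := H397.K.hstK (σ := sg c) (ν := ν) hF hd h4R h16 a1 g1 g2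
    (v₀ := v₀) s2 g16 g8 t1 t2 t3 t4 t5 g3 g5 g4 g7 g6 (abs_sg c) s1 (s3 c) s4
  exact hsat (hcn v₀) hd hF key g9 g10 g11 g12 g13 g14 g15 g17 g18

/-- **Box (1)** with the flat part and the teeth (918). -/
theorem sat_row (H : Set6 Φ ψ δ N k p S ψn) (hK : QE.Stair 3 Φ δ N k p S) {T R X1 r : ℝ}
    (hT : 0 ≤ T) (hR : 0 ≤ R) (h4R : 4 * (R + 1) ≤ X1) (h16 : 16 * (T + 1) ≤ X1 ^ 2)
    (hr : 0 < r) :
    ∃ rf cg X3 : ℝ, 0 < rf ∧ rf ≤ r ∧ 0 < cg ∧ max X1 1 ≤ X3 ∧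
      ∀ {x3 xB τ κ x' xc ε η e ν : ℝ}, x3 = ((2 * X3) ^ 2 - 1) / ((2 * X3) ^ 2 + 1) →
      Cst x3 xB τ κ x' xc ε η e ν → ∃ r₁ > 0, ∀ᶠ n in atTop, ∀ v₀ : ℤ × ℤ,
      v₀.2 = (ro (p n (k n))).2 →
      ∃ (Gt : Set ℂ) (x₁ : ℂ) (κ' : Type) (_ : Finite κ') (Th : κ' → Set ℂ),
        (∀ i, Th i ⊆ psr (δ n) v₀ (ψn n) '' HH) ∧
        (∀ i, Th i ⊆ Bf (H446.G.dl (δ n) * (((ro (p n (k n))).1 - v₀.1 : ℤ) : ℝ)) rf) ∧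
        (∀ i, IsPreconnected (Th i)) ∧
        (∀ i, ∀ x ∈ Th i, ∀ y ∈ Th i, dist x y ≤ 8 * H446.G.dl (δ n)) ∧
        (∀ i, ∀ x ∈ Th i, x.im ≤ 0) ∧
        (∀ i, ∃ x ∈ closure (Th i), x ∉ psr (δ n) v₀ (ψn n) '' HH) ∧
        (∀ z ∈ psr (δ n) v₀ (ψn n) '' HH,
          z ∈ Bf (H446.G.dl (δ n) * (((ro (p n (k n))).1 - v₀.1 : ℤ) : ℝ)) (rf / 2) → z.im ≤ 0 →
            ∃ i, z ∈ Th i) ∧
        ∀ (ρ Rr : ℕ) (r₀ ρ' r' ℓ s₂ : ℝ), 32 ≤ ρ → 7 * ρ ≤ Rr → δ n * (Rr + 2) ≤ r₀ →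
          δ n * (Rr + 2) ≤ r' → 2 * ρ * δ n ≤ ρ' → 2 * ρ * δ n ≤ s₂ → 96 * ℓ ≤ δ n * ρ →
          16 * (ρ * δ n) ≤ rf → 0 < ℓ → r₀ ≤ r₁ → ρ' ≤ r₁ → r' ≤ r₁ → s₂ ≤ r₁ → 40 * ℓ ≤ r₀ →
          12 * H446.G.dl (δ n) ≤ ℓ → r₀ ≤ rf / 8 → 8 * ℓ < cg →
          ∀ (A : Finset (Sym2 (ℤ × ℤ))) (j : ℕ), Bef (exn δ N k p S ψn n) T R A j → ∀ c : Bool,
            SatH (T + 1) (R + 1) x3 xB τ κ x' xc ε η e ν X1 X3 δ N k p S ψn n v₀ ρ Rr r₀ ρ' r' ℓ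
              s₂ (H446.G.dl (δ n) * (((ro (p n (k n))).1 - v₀.1 : ℤ) : ℝ)) rf cg
              (3 * H446.G.dl (δ n)) Gt x₁ Th A j c := by
  obtain ⟨ρt, hρt, hteeth⟩ := H918.teeth_row H hK
  obtain ⟨rf, cg, X3, b1, b2, b3, b4, hflt⟩ := H918.flt_row H hK (X1 := X1) (by linarith)
    (r₁ := min r ρt) (by positivity)
  refine ⟨rf, cg, X3, b1, b2.trans (min_le_left _ _), b3, b4, ?_⟩
  intro x3 xB τ κ x' xc ε η e ν hx3 C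
  obtain ⟨r₁, hr₁, hsat⟩ := sat_all H hT hR h4R h16 ((le_max_right _ _).trans b4) hx3 C
  refine ⟨r₁, hr₁, ?_⟩
  filter_upwards [hflt, hteeth rf b1 (b2.trans (min_le_right _ _)), hsat] with n h1 h2 h3 v₀ hv
  obtain ⟨Gt, x₁, hF⟩ := h1 v₀ hv
  obtain ⟨κ', hκ', Th, t1, t2, t3, t4, t5, t6, t7⟩ := h2 v₀ hv
  refine ⟨Gt, x₁, κ', hκ', Th, t1, t2, t3, t4, t5, t6, t7, ?_⟩
  intro ρ Rr r₀ ρ' r' ℓ s₂ g1 g2 g3 g4 g5 g6 g7 g8 g9 g10 g11 g12 g13 g14 g15 g17 g18 A j hB c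
  have a1 : 0 < δ n := (H.appr.1 n).1
  have hdl : H446.G.dl (δ n) ≤ δ n := by
    unfold H446.G.dl
    refine div_le_self a1.le ?_
    rw [Real.one_le_sqrt]
    norm_num
  have hdl0 := H446.G.dl_pos a1
  have hρ : (32 : ℝ) ≤ ρ := by exact_mod_cast g1
  refine h3 v₀ ρ Rr r₀ ρ' r' ℓ s₂ _ rf cg _ Gt x₁ g1 g2 g3 g4 g5 g6 g7 g8 g9 g10 g11 g12 g13 g14
    (by linarith) (by linarith) g17 g18 hF (fun i => ⟨t1 i, t3 i, t2 i⟩) ?_ t5 t6 t7 A j hB c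
  intro i x hx y hy
  refine (t4 i x hx y hy).trans (le_trans ?_ g6)
  nlinarith

/-- **Box (1)** with the radii: `ρ = 8 ⌈a s / δ⌉`, `R = ⌊r / δ⌋`, mesh `ℓ = 5 · dl · Nn`. -/
theorem sat_rs (H : Set6 Φ ψ δ N k p S ψn) (hK : QE.Stair 3 Φ δ N k p S) {T R X1 rm a : ℝ}
    (hT : 0 ≤ T) (hR : 0 ≤ R) (h4R : 4 * (R + 1) ≤ X1) (h16 : 16 * (T + 1) ≤ X1 ^ 2)
    (hrm : 0 < rm) (ha : 60 ≤ a) :
    ∃ rf cg X3 : ℝ, 0 < rf ∧ rf ≤ rm ∧ 0 < cg ∧ max X1 1 ≤ X3 ∧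
      ∀ {x3 xB τ κ x' xc ε η e ν : ℝ}, x3 = ((2 * X3) ^ 2 - 1) / ((2 * X3) ^ 2 + 1) →
      Cst x3 xB τ κ x' xc ε η e ν → ∃ r₁ > 0, ∀ r, 0 < r → r ≤ r₁ → ∃ s₀ > 0, ∀ s, 0 < s →
      s ≤ s₀ → ∀ᶠ n in atTop, ∀ v₀ : ℤ × ℤ, v₀.2 = (ro (p n (k n))).2 →
      ∃ (Gt : Set ℂ) (x₁ : ℂ) (κ' : Type) (_ : Finite κ') (Th : κ' → Set ℂ),
        (∀ i, Th i ⊆ psr (δ n) v₀ (ψn n) '' HH) ∧
        (∀ i, Th i ⊆ Bf (H446.G.dl (δ n) * (((ro (p n (k n))).1 - v₀.1 : ℤ) : ℝ)) rf) ∧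
        (∀ i, IsPreconnected (Th i)) ∧
        (∀ i, ∀ x ∈ Th i, ∀ y ∈ Th i, dist x y ≤ 8 * H446.G.dl (δ n)) ∧
        (∀ i, ∀ x ∈ Th i, x.im ≤ 0) ∧
        (∀ i, ∃ x ∈ closure (Th i), x ∉ psr (δ n) v₀ (ψn n) '' HH) ∧
        (∀ z ∈ psr (δ n) v₀ (ψn n) '' HH,
          z ∈ Bf (H446.G.dl (δ n) * (((ro (p n (k n))).1 - v₀.1 : ℤ) : ℝ)) (rf / 2) → z.im ≤ 0 →
            ∃ i, z ∈ Th i) ∧
        ∀ (A : Finset (Sym2 (ℤ × ℤ))) (j : ℕ), Bef (exn δ N k p S ψn n) T R A j → ∀ c : Bool,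
          SatH (T + 1) (R + 1) x3 xB τ κ x' xc ε η e ν X1 X3 δ N k p S ψn n v₀
            (8 * ⌈a * s / δ n⌉₊) ⌊r / δ n⌋₊ (2 * r) (20 * (a * s)) (2 * r)
            (5 * (H446.G.dl (δ n) * H446.G.Nn s (δ n))) (20 * (a * s))
            (H446.G.dl (δ n) * (((ro (p n (k n))).1 - v₀.1 : ℤ) : ℝ)) rf cg
            (3 * H446.G.dl (δ n)) Gt x₁ Th A j c := by
  obtain ⟨rf, cg, X3, b1, b2, b3, b4, h⟩ := sat_row H hK (X1 := X1) hT hR h4R h16 hrm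
  refine ⟨rf, cg, X3, b1, b2, b3, b4, ?_⟩
  intro x3 xB τ κ x' xc ε η e ν hx3 C
  obtain ⟨r₁, hr₁, hsat⟩ := h hx3 C
  refine ⟨min (r₁ / 2) (rf / 16), by positivity, fun r hr hr1 => ?_⟩
  have c1 : r ≤ r₁ / 2 := hr1.trans (min_le_left _ _)
  have c2 : r ≤ rf / 16 := hr1.trans (min_le_right _ _)
  have ha0 : 0 < a := by linarith
  refine ⟨min (r / (72 * a)) (min (rf / (160 * a)) (min (r₁ / (20 * a)) (cg / 41))), by positivity,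
    fun s hs hs1 => ?_⟩
  have d1 : 72 * (a * s) ≤ r := by
    have := hs1.trans (min_le_left _ _)
    rw [le_div_iff₀ (by positivity)] at this
    linarith
  have d2 : 160 * (a * s) ≤ rf := by
    have := hs1.trans ((min_le_right _ _).trans (min_le_left _ _))
    rw [le_div_iff₀ (by positivity)] at this
    linarith
  have d3 : 20 * (a * s) ≤ r₁ := by
    have := hs1.trans ((min_le_right _ _).trans ((min_le_right _ _).trans (min_le_left _ _)))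
    rw [le_div_iff₀ (by positivity)] at this
    linarith
  have d4 : 41 * s ≤ cg := by
    have := hs1.trans ((min_le_right _ _).trans ((min_le_right _ _).trans (min_le_right _ _)))
    rw [le_div_iff₀ (by positivity)] at this
    linarith
  have d5 : 60 * s ≤ a * s := mul_le_mul_of_nonneg_right ha hs.le
  filter_upwards [hsat, H.appr.2.1.eventually (gt_mem_nhds (show (0 : ℝ) < s / 7 by positivity))]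
    with n h1 hδs v₀ hv
  have a1 : 0 < δ n := (H.appr.1 n).1
  obtain ⟨Gt, x₁, κ', hκ', Th, t1, t2, t3, t4, t5, t6, t7, h2⟩ := h1 v₀ hv
  refine ⟨Gt, x₁, κ', hκ', Th, t1, t2, t3, t4, t5, t6, t7, fun A j hB c => ?_⟩
  have hdl : H446.G.dl (δ n) ≤ δ n := by
    unfold H446.G.dl
    refine div_le_self a1.le ?_
    rw [Real.one_le_sqrt]
    norm_num
  have hdl0 := H446.G.dl_pos a1
  obtain ⟨e1, e2, e3, e4, e5, e6⟩ := H397.K.cst_all (a := a) (s := s) (r := r) (by linarith) a1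
    (by linarith : δ n ≤ s) d1
  have f1 := H446.G.Nn_le hs a1
  have f2 := H446.G.lt_Nn (s := s) a1
  exact h2 (8 * ⌈a * s / δ n⌉₊) ⌊r / δ n⌋₊ (2 * r) (20 * (a * s)) (2 * r)
    (5 * (H446.G.dl (δ n) * H446.G.Nn s (δ n))) (20 * (a * s)) e1 e2 e3 e3 e4 e4
    (e5 _ (by linarith)) (e6 rf d2) (by linarith) (by linarith) d3 (by linarith) d3 (by linarith)
    (by linarith) (by linarith) (by linarith) A j hB c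

end Vale.Agent.P167.H653.St
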