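import Vale.Agent.P167.H653.St.Fin
import Vale.Agent.P167.SG.Cls7

/-!
# P167, general `q`, box (1), second part: the structure `SG.Te`

`sat_te`: `sat_rs` together with `SG.Te` (teeth in the box of radius `5 rf / 8`, the other obstacles off
the box of radius `3 rf / 4` and relatively closed).
-/

set_option autoImplicit false
set_option linter.unusedSimpArgs false
set_option linter.unusedVariables false

namespace Vale.Agent.P167.H653.St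

open Set Metric Filter Topology
open Vale.Agent.P167.E6 Vale.Agent.P167.E2
open Vale.Agent.P167.H192 (ro)
open Vale.Agent.P167.H411 (exn Set6)
open Vale.Agent.P167.H756 (Drv HConf hconf)
open Vale.Agent.P167.H446.G (psr Bef)
open Vale.Agent.P167.H713.Q
open Vale.Agent.P153.R2.L1 (HH)
open Vale.Agent.P164 (loewnerDomain)
open Vale.Agent.P167.SG (Bf Flt Sat Cst Te bf_near bf_mono)
open Vale.Agent.P167.H397.K (Kf Obs join' dist_qR oR_qR oR_mono coord_le_dist mem_frm jd_frm kf_cfl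
  hk kf_box)

section

variable {n : ℕ} {p : ZMod n → ℤ × ℤ} {k : ℕ} {S : Finset (ℤ × ℤ)} {A : Finset (Sym2 (ℤ × ℤ))}
  {j : ℕ} {δ : ℝ} {c : Bool} {ρ R : ℕ}
  {ψ : ℂ → ℂ} {xb rf cg X1 X3 δ₀ : ℝ} {Gt : Set ℂ} {x₁ : ℂ} {T B : ℝ} {W : ℝ → ℝ} {t : ℝ}

/-- The regions of the members of conflict pairs do not meet the box of radius `3 rf / 4`. -/
theorem kbox34 (H : Flt ψ xb rf cg X1 X3 δ₀ Gt x₁) (Hd : Drv T B W t) (h1 : 4 * B ≤ X1)
    (h2 : 16 * T ≤ X1 ^ 2) (hδ : 0 < δ) (hρ : 32 ≤ ρ) (hR : 7 * ρ ≤ R) {v₀ : ℤ × ℤ}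
    (hD : ψ '' loewnerDomain W t = H397.K.frm δ v₀ '' Dn p k S A j δ) (hδ₀ : δ₀ ≤ 3 * δ)
    (hrf : 32 * (ρ * δ) ≤ rf) {z : ℤ × ℤ} {u w : ℂ} (hC : Cfl p k S A j δ c z ρ R u w) :
    Disjoint (H397.K.frm δ v₀ '' Cn p k S A j δ z ρ u) (Bf xb (3 * rf / 4)) := by
  rw [Set.disjoint_left]
  rintro _ ⟨y, hy, rfl⟩ hyb
  have h16 : (32 : ℝ) ≤ ρ := by exact_mod_cast hρ
  have hRr : 7 * (ρ : ℝ) ≤ R := by exact_mod_cast hR
  have hδρ : δ * 32 ≤ δ * ρ := mul_le_mul_of_nonneg_left h16 hδ.le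
  have hδR : δ * (7 * ρ) ≤ δ * R := mul_le_mul_of_nonneg_left hRr hδ.le
  have hyo := (Cn_sub hy).2
  have hδ₀' := H.hδ
  -- the distances
  have d1 : dist (H397.K.frm δ v₀ y) (H397.K.frm δ v₀ u) ≤ 2 * (ρ * δ) := by
    rw [H397.K.dist_frm]
    refine (dist_qR (oR_qR hyo) (oR_qR (oR_mono hδ (by linarith) hC.u_reg))).trans ?_
    linarith
  have d2 : dist (H397.K.frm δ v₀ u) (H397.K.frm δ v₀ w) ≤ ρ * δ := by
    rw [H397.K.dist_frm]
    refine (dist_qR (oR_qR hC.u_reg) (oR_qR hC.w_reg)).trans ?_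
    linarith
  have hub : H397.K.frm δ v₀ u ∈ Bf xb (3 * rf / 4 + 2 * (ρ * δ)) := bf_near hyb d1
  have hj := join' H Hd h1 h2 (u := H397.K.frm δ v₀ u) (v := H397.K.frm δ v₀ w) (d := ρ * δ)
    (by rw [hD]; exact mem_frm.2 hC.u_mem) (by rw [hD]; exact mem_frm.2 hC.w_mem) hub
    (by positivity) d2 (by linarith)
  rw [hD, jd_frm] at hj
  obtain ⟨C, c1, c2, c3, c4, c5⟩ := hj
  have hsub : C ⊆ Dn p k S A j δ ∩ oR δ z R := by
    intro x hx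
    refine ⟨c2 hx, ?_⟩
    have h3 := mem_ball.1 (c3 hx)
    obtain ⟨g1, g2⟩ := coord_le_dist (x := x) (y := u)
    obtain ⟨u1, u2⟩ := hC.u_reg
    rw [abs_le] at g1 g2
    rw [abs_lt] at u1 u2
    constructor <;> rw [abs_lt] <;> constructor <;> linarith
  exact hC.nj (c1.subset_connectedComponentIn c4 hsub c5)

/-- **`Te`** for one history. -/
theorem te_of (H : Flt ψ xb rf cg X1 X3 δ₀ Gt x₁) (Hd : Drv T B W t) (h1 : 4 * B ≤ X1)
    (h2 : 16 * T ≤ X1 ^ 2) (hδ : 0 < δ) (hρ : 32 ≤ ρ) (hR : 7 * ρ ≤ R) {v₀ : ℤ × ℤ}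
    (hD : ψ '' loewnerDomain W t = H397.K.frm δ v₀ '' Dn p k S A j δ) (hδ₀ : δ₀ ≤ 3 * δ)
    (hrf : 32 * (ρ * δ) ≤ rf) {κ : Type} {Th : κ → Set ℂ}
    (t1 : ∀ i, Th i ⊆ Bf xb (5 * rf / 8)) (t3 : ∀ i, ∀ x ∈ Th i, x.im ≤ 0) :
    Te (ψ '' loewnerDomain W t) (Sum.elim (Kf p k S A j δ c ρ R v₀) Th)
      (fun i => i.isRight = true) xb (5 * rf / 8) (3 * rf / 4) := by
  have hrf0 := H.hrf
  have hK := hk (p := p) (k := k) (S := S) (A := A) (j := j) (c := c) hδ hρ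
    (by omega : ρ ≤ R) v₀ (r₀ := δ * (R + 2)) (ρ' := 2 * ρ * δ) (r' := δ * (R + 2))
    (ℓ := δ * ρ / 96) (s₂ := 2 * ρ * δ) le_rfl le_rfl le_rfl (by linarith) le_rfl
  rw [← hD] at hK
  refine ⟨by linarith, ?_, ?_, ?_⟩
  · rintro (i | i) hi
    · exact hK.kcl i
    · exact absurd rfl hi
  · rintro (i | i) hi
    · obtain ⟨z, u, w, -, g2, -, g4⟩ := kf_cfl hδ hρ v₀ i
      exact (kbox34 H Hd h1 h2 hδ hρ hR hD hδ₀ hrf g2).mono_left g4
    · exact absurd rfl hi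
  · rintro (i | i) hi z hz
    · simp at hi
    · exact ⟨t1 i hz, t3 i z hz⟩

end

variable {Φ : (ℝ × ℝ) ≃ₜ (ℝ × ℝ)} {ψ : ℂ → ℂ} {δ : ℕ → ℝ} {N k : ℕ → ℕ}
  {p : ∀ n, ZMod (N n) → ℤ × ℤ} {S : ℕ → Finset (ℤ × ℤ)} {ψn : ℕ → ℂ → ℂ}

/-- **Box (1), final form**: `Sat` and `Te` for all histories and both colours. The teeth are the same
for all histories. -/
theorem sat_te (H : Set6 Φ ψ δ N k p S ψn) (hK : QE.Stair 3 Φ δ N k p S) {T R X1 rm a : ℝ}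
    (hT : 0 ≤ T) (hR : 0 ≤ R) (h4R : 4 * (R + 1) ≤ X1) (h16 : 16 * (T + 1) ≤ X1 ^ 2)
    (hrm : 0 < rm) (ha : 60 ≤ a) :
    ∃ rf cg X3 : ℝ, 0 < rf ∧ rf ≤ rm ∧ 0 < cg ∧ max X1 1 ≤ X3 ∧
      ∀ {x3 xB τ κ x' xc ε η e ν : ℝ}, x3 = ((2 * X3) ^ 2 - 1) / ((2 * X3) ^ 2 + 1) →
      Cst x3 xB τ κ x' xc ε η e ν → ∃ r₁ > 0, ∀ r, 0 < r → r ≤ r₁ → ∃ s₀ > 0, ∀ s, 0 < s →
      s ≤ s₀ → ∀ᶠ n in atTop, ∀ v₀ : ℤ × ℤ, v₀.2 = (ro (p n (k n))).2 →
      ∃ (Gt : Set ℂ) (x₁ : ℂ) (κ' : Type) (_ : Finite κ') (Th : κ' → Set ℂ),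
        ∀ (A : Finset (Sym2 (ℤ × ℤ))) (j : ℕ), Bef (exn δ N k p S ψn n) T R A j → ∀ c : Bool,
          SatH (T + 1) (R + 1) x3 xB τ κ x' xc ε η e ν X1 X3 δ N k p S ψn n v₀
            (8 * ⌈a * s / δ n⌉₊) ⌊r / δ n⌋₊ (2 * r) (20 * (a * s)) (2 * r)
            (5 * (H446.G.dl (δ n) * H446.G.Nn s (δ n))) (20 * (a * s))
            (H446.G.dl (δ n) * (((ro (p n (k n))).1 - v₀.1 : ℤ) : ℝ)) rf cg
            (3 * H446.G.dl (δ n)) Gt x₁ Th A j c ∧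
          Te (psr (δ n) v₀ (ψn n) '' loewnerDomain ((exn δ N k p S ψn n).W A)
              ((exn δ N k p S ψn n).c A j))
            (Sum.elim (Kf (p n) (k n) (S n) A j (δ n) c (8 * ⌈a * s / δ n⌉₊) ⌊r / δ n⌋₊ v₀) Th)
            (fun i => i.isRight = true)
            (H446.G.dl (δ n) * (((ro (p n (k n))).1 - v₀.1 : ℤ) : ℝ)) (5 * rf / 8)
            (3 * rf / 4) := by
  obtain ⟨ρt, hρt, hteeth⟩ := H918.teeth_row H hK
  obtain ⟨rf, cg, X3, b1, b2, b3, b4, hflt⟩ := H918.flt_row H hK (X1 := X1) (by linarith)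
    (r₁ := min rm ρt) (by positivity)
  refine ⟨rf, cg, X3, b1, b2.trans (min_le_left _ _), b3, b4, ?_⟩
  intro x3 xB τ κ x' xc ε η e ν hx3 C
  obtain ⟨r₁, hr₁, hsat⟩ := sat_all H hT hR h4R h16 ((le_max_right _ _).trans b4) hx3 C
  refine ⟨min (r₁ / 2) (rf / 16), by positivity, fun r hr hr1 => ?_⟩
  have c1 : r ≤ r₁ / 2 := hr1.trans (min_le_left _ _)
  have c2 : r ≤ rf / 16 := hr1.trans (min_le_right _ _)
  have ha0 : 0 < a := by linarith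
  refine ⟨min (r / (72 * a)) (min (rf / (320 * a)) (min (r₁ / (20 * a)) (cg / 41))), by positivity,
    fun s hs hs1 => ?_⟩
  have d1 : 72 * (a * s) ≤ r := by
    have := hs1.trans (min_le_left _ _)
    rw [le_div_iff₀ (by positivity)] at this
    linarith
  have d2 : 320 * (a * s) ≤ rf := by
    have := hs1.trans ((min_le_right _ _).trans (min_le_left _ _))
    rw [le_div_iff₀ (by positivity)] at this
    linarith
  have d3 : 20 * (a * s) ≤ r₁ := by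
    have := hs1.trans ((min_le_right _ _).trans ((min_le_right _ _).trans (min_le_left _ _)))
    rw [le_div_iff₀ (by positivity)] at this
    linarith
  have d4 : 41 * s ≤ cg := by
    have := hs1.trans ((min_le_right _ _).trans ((min_le_right _ _).trans (min_le_right _ _)))
    rw [le_div_iff₀ (by positivity)] at this
    linarith
  have d5 : 60 * s ≤ a * s := mul_le_mul_of_nonneg_right ha hs.le
  filter_upwards [hflt, hteeth rf b1 (b2.trans (min_le_right _ _)), hsat,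
    hst_st H hT hR C.hν, H756.drv H hT hR zero_lt_one,
    H.appr.2.1.eventually (gt_mem_nhds (show (0 : ℝ) < min (s / 7) (rf / 64) by positivity))]
    with n h1 h2 h3 hst hdrv hδs v₀ hv
  have a1 : 0 < δ n := (H.appr.1 n).1
  have hdl : H446.G.dl (δ n) ≤ δ n := by
    unfold H446.G.dl
    refine div_le_self a1.le ?_
    rw [Real.one_le_sqrt]
    norm_num
  have hdl0 := H446.G.dl_pos a1
  have hδs1 : δ n < s / 7 := hδs.trans_le (min_le_left _ _)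
  have hδs2 : δ n < rf / 64 := hδs.trans_le (min_le_right _ _)
  obtain ⟨Gt, x₁, hF⟩ := h1 v₀ hv
  obtain ⟨κ', hκ', Th, t1, t2, t3, t4, t5, t6, t7⟩ := h2 v₀ hv
  set xb : ℝ := H446.G.dl (δ n) * (((ro (p n (k n))).1 - v₀.1 : ℤ) : ℝ) with hxb
  -- only the teeth which meet the box of radius `rf / 2`
  have u2 : ∀ i : {i : κ' // (Th i ∩ Bf xb (rf / 2)).Nonempty}, Th i ⊆ Bf xb (5 * rf / 8) := by
    rintro ⟨i, z, hz, hzb⟩ x hx
    have h5 := t4 i z hz x hx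
    exact bf_mono (by linarith) (bf_near hzb h5)
  have u7 : ∀ z ∈ psr (δ n) v₀ (ψn n) '' HH, z ∈ Bf xb (rf / 2) → z.im ≤ 0 →
      ∃ i : {i : κ' // (Th i ∩ Bf xb (rf / 2)).Nonempty}, z ∈ Th i := by
    intro z hz hzb him
    obtain ⟨i, hi⟩ := t7 z hz hzb him
    exact ⟨⟨i, z, hi, hzb⟩, hi⟩
  refine ⟨Gt, x₁, {i : κ' // (Th i ∩ Bf xb (rf / 2)).Nonempty}, Subtype.finite,
    fun i => Th i.1, fun A j hB c => ?_⟩
  obtain ⟨e1, e2, e3, e4, e5, e6⟩ := H397.K.cst_all (a := a) (s := s) (r := r) (by linarith) a1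
    (by linarith : δ n ≤ s) d1
  have f1 := H446.G.Nn_le hs a1
  have f2 := H446.G.lt_Nn (s := s) a1
  have e7 := e6 (rf / 2) (by linarith)
  have hρ : (32 : ℝ) ≤ ((8 * ⌈a * s / δ n⌉₊ : ℕ) : ℝ) := by exact_mod_cast e1
  obtain ⟨s1, s2, s3, s4⟩ := hst A j hB v₀
  obtain ⟨hd, hW0⟩ := hdrv A hB.1 j hB.2.1 hB.2.2
  refine ⟨?_, ?_⟩
  · exact h3 v₀ (8 * ⌈a * s / δ n⌉₊) ⌊r / δ n⌋₊ (2 * r) (20 * (a * s)) (2 * r)
      (5 * (H446.G.dl (δ n) * H446.G.Nn s (δ n))) (20 * (a * s)) xb rf cg _ Gt x₁ e1 e2 e3 e3 e4 e4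
      (e5 _ (by linarith)) (e6 rf (by linarith)) (by linarith) (by linarith) d3 (by linarith) d3
      (by linarith) (by linarith) (by linarith) (by linarith) (by linarith) hF
      (κ' := {i : κ' // (Th i ∩ Bf xb (rf / 2)).Nonempty}) (Th := fun i => Th i.1)
      (fun i => ⟨t1 i.1, t3 i.1, t2 i.1⟩)
      (fun i x hx y hy => (t4 i.1 x hx y hy).trans (by linarith))
      (fun i => t5 i.1) (fun i => t6 i.1) u7 A j hB c
  · exact te_of hF hd h4R h16 a1 e1 e2 s2 (by linarith) (by linarith) u2 (fun i => t5 i.1)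

end Vale.Agent.P167.H653.St
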