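import Vale.Agent.P167.H653.St.Tip
import Vale.Agent.P167.H756.Q6

/-!
# P167, general `q`, [HST-ST], part 3: the sides at time `0`
-/

set_option autoImplicit false
set_option linter.unusedSimpArgs false
set_option linter.unusedVariables false

namespace Vale.Agent.P167.H653.St

open Set Metric Filter Topology
open Vale.Agent.P167.H756 (Drv dist_mb_mb)
open Vale.Agent.P153.R2.R1 (mb)
open Vale.Agent.P153.R2.L1 (HH)
open Vale.Agent.P164 (loewnerDomain Zf)
open Vale.Agent.P167.SG (pos)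

/-- The smallness of the first step. -/
theorem exists_small {ν : ℝ} (hν : 0 < ν) : ∃ e : ℝ, 0 < e ∧
    2 * (6 * (4 * e + 4 * √e) + e) ≤ ν / 2 ∧ 2 * (4 * e + 4 * √e) ≤ ν := by
  set s : ℝ := min 1 (ν / 200) with hs
  have hs0 : 0 < s := by positivity
  have hs1 : s ≤ 1 := min_le_left _ _
  have hs2 : s ≤ ν / 200 := min_le_right _ _
  refine ⟨s ^ 2, by positivity, ?_, ?_⟩
  · rw [Real.sqrt_sq hs0.le]
    nlinarith
  · rw [Real.sqrt_sq hs0.le]
    nlinarith

/-- The label at time `0` from the label after the first step. -/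
theorem side_zero {W : ℝ → ℝ} {t₁ e ν : ℝ} (hW : W 0 = 0) (hd : Drv e e W t₁)
    (h1 : 2 * (6 * (4 * e + 4 * √e) + e) ≤ ν / 2) (h2 : 2 * (4 * e + 4 * √e) ≤ ν) (σ : ℝ)
    {w : ℂ} (hw : w ∈ HH)
    (hlab : w ∈ loewnerDomain W t₁ → ∃ x : ℝ, 0 ≤ σ * x ∧
      dist (pos W t₁ w) (mb 1 Complex.I x) ≤ ν / 2) :
    ∃ x : ℝ, 0 ≤ σ * x ∧ dist (pos W 0 w) (mb 1 Complex.I x) ≤ ν := by
  have e0 : pos W 0 w = mb 1 Complex.I w := by
    unfold pos
    rw [Vale.Agent.P164.Zf_zero hw, hW, Complex.ofReal_zero, sub_zero]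
  have hwi : (0 : ℝ) < w.im := hw
  have he0 : 0 ≤ e := hd.R_nonneg
  by_cases hin : w ∈ loewnerDomain W t₁
  · obtain ⟨x, hx, hdx⟩ := hlab hin
    refine ⟨x, hx, ?_⟩
    have h3 := hd.disp2 hin
    have h4 : dist (pos W 0 w) (pos W t₁ w) ≤ ν / 2 := by
      rw [e0]
      unfold pos
      refine (dist_mb_mb hwi.le (Vale.Agent.P164.Zf_im_pos hd.nn hin).le).trans ?_
      rw [norm_sub_rev]
      linarith
    linarith [dist_triangle (pos W 0 w) (pos W t₁ w) (mb 1 Complex.I x)]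
  · refine ⟨0, by simp, ?_⟩
    have h3 : ‖w‖ ≤ 4 * e + 4 * √e := by
      by_contra hlt
      rw [not_le] at hlt
      have hs : 0 ≤ √e := Real.sqrt_nonneg e
      refine hin (hd.dom hwi (by linarith) ?_)
      have h5 : (4 * √e) ^ 2 ≤ ‖w‖ ^ 2 := by
        refine pow_le_pow_left₀ (by positivity) ?_ 2
        linarith
      rw [mul_pow, Real.sq_sqrt he0] at h5
      linarith
    rw [e0]
    refine (dist_mb_mb (z' := ((0 : ℝ) : ℂ)) hwi.le (by simp)).trans ?_
    rw [Complex.ofReal_zero, sub_zero]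
    linarith

end Vale.Agent.P167.H653.St
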