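import Vale.Agent.P167.H653.St.Side
import Vale.Agent.P167.H446.G.Comb

/-!
# P167, general `q`, [HST-ST]: the standard properties of one history

`hst_st`: the image of the Loewner domain in the frame of the squares, its complement is connected, the
two sides are near the two half-lines, the tip is near `-1`.
-/

set_option autoImplicit false
set_option linter.unusedSimpArgs false
set_option linter.unusedVariables false

namespace Vale.Agent.P167.H653.St

open Set Metric Filter Topology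
open Vale.Agent.P167.E6 Vale.Agent.P167.E2
open Vale.Agent.P167.H411 (Qc exn Set6 good_ev mem_Qc)
open Vale.Agent.P167.H756 (Drv HConf hconf dom_eq dom_zero')
open Vale.Agent.P167.H446.G (psr Bef)
open Vale.Agent.P167.H713.Q (Dn Sd tip)
open Vale.Agent.P153.R2.R1 (mb)
open Vale.Agent.P153.R2.L1 (HH)
open Vale.Agent.P164 (loewnerDomain Zf)
open Vale.Agent.P167.SG (pos)

/-- The sign of the side: `true` is the right side, `false` the left side. -/
def sg (c : Bool) : ℝ := if c then 1 else -1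

theorem abs_sg (c : Bool) : |sg c| = 1 := by cases c <;> simp [sg]

variable {Φ : (ℝ × ℝ) ≃ₜ (ℝ × ℝ)} {ψ : ℂ → ℂ} {δ : ℕ → ℝ} {N k : ℕ → ℕ}
  {p : ∀ n, ZMod (N n) → ℤ × ℤ} {S : ℕ → Finset (ℤ × ℤ)} {ψn : ℕ → ℂ → ℂ}

/-- **The sides after at least one step.** -/
theorem side_succ (H : Set6 Φ ψ δ N k p S ψn) {T R ν : ℝ} (hT : 0 ≤ T) (hR : 0 ≤ R) (hν : 0 < ν) :
    ∀ᶠ n in atTop, ∀ A ∈ (exn δ N k p S ψn n).C, ∀ τ : ℕ, τ + 1 < (exn δ N k p S ψn n).K A →
      Drv T R ((exn δ N k p S ψn n).W A) ((exn δ N k p S ψn n).c A (τ + 1)) →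
      ∀ (c : Bool), ∀ w ∈ loewnerDomain ((exn δ N k p S ψn n).W A)
        ((exn δ N k p S ψn n).c A (τ + 1)),
        ψn n w ∈ Sd (p n) (k n) (S n) A (τ + 1) (δ n) c → ∃ x : ℝ, 0 ≤ sg c * x ∧
          dist (pos ((exn δ N k p S ψn n).W A) ((exn δ N k p S ψn n).c A (τ + 1)) w)
            (mb 1 Complex.I x) ≤ ν := by
  set Y : ℝ := 8 * R + 8 * T + 8 with hY
  have hY0 : 0 < Y := by positivity
  have hY1 : 8 * R ≤ Y := by linarith
  have hY2 : 64 * T ≤ Y ^ 2 := by nlinarith [mul_nonneg hR hT]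
  obtain ⟨Rd, hRd, cd, hcd, hc⟩ := hconf H hY0
  obtain ⟨d0, hd0, hlab⟩ := H72.lab_nr (T := T) (R := R) hRd hcd hY0 hY1 hY2 hν
  have hδ0 : ∀ᶠ n in atTop, δ n ≤ d0 := by
    filter_upwards [H.appr.2.1.eventually (gt_mem_nhds hd0)] with n hn
    exact hn.le
  filter_upwards [hc, good_ev H.appr, hδ0] with n h1 h2 h3 A hA τ hτ hdrv c w hw hS
  obtain ⟨a1, a2, a3, a4, a5⟩ := H.appr.1 n
  have hA' : A ⊆ edges (S n) := (mem_Qc (p := p n) (k := k n) (δ := δ n)).1 hA
  have hτ' : τ ≤ len (p n) (k n) A := by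
    have h : τ + 1 < len (p n) (k n) A + 2 := hτ
    omega
  have key := hlab a1 h3 a4 a5 a2 h2 hA' hτ' (H.isU n h2) h1 hdrv w hw
  cases c with
  | true =>
    obtain ⟨x, hx, hd⟩ := key.1 hS
    exact ⟨x, by simpa [sg] using hx, hd⟩
  | false =>
    obtain ⟨x, hx, hd⟩ := key.2 hS
    refine ⟨x, ?_, hd⟩
    have hx' : x ≤ 0 := hx
    simp only [sg, Bool.false_eq_true, if_false]
    linarith

/-- **[HST-ST].** -/
theorem hst_st (H : Set6 Φ ψ δ N k p S ψn) {T R ν : ℝ} (hT : 0 ≤ T) (hR : 0 ≤ R) (hν : 0 < ν) :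
    ∀ᶠ n in atTop, ∀ (A : Finset (Sym2 (ℤ × ℤ))) (j : ℕ), Bef (exn δ N k p S ψn n) T R A j →
      ∀ v₀ : ℤ × ℤ,
      IsPreconnected (psr (δ n) v₀ (ψn n) '' loewnerDomain ((exn δ N k p S ψn n).W A)
        ((exn δ N k p S ψn n).c A j))ᶜ ∧
      psr (δ n) v₀ (ψn n) '' loewnerDomain ((exn δ N k p S ψn n).W A)
        ((exn δ N k p S ψn n).c A j) = frm (δ n) v₀ '' Dn (p n) (k n) (S n) A j (δ n) ∧
      (∀ (c : Bool), ∀ w ∈ loewnerDomain ((exn δ N k p S ψn n).W A)
          ((exn δ N k p S ψn n).c A j),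
        psr (δ n) v₀ (ψn n) w ∈ frm (δ n) v₀ '' Sd (p n) (k n) (S n) A j (δ n) c →
        ∃ x : ℝ, 0 ≤ sg c * x ∧
          dist (pos ((exn δ N k p S ψn n).W A) ((exn δ N k p S ψn n).c A j) w)
            (mb 1 Complex.I x) ≤ ν) ∧
      (∀ C ⊆ psr (δ n) v₀ (ψn n) '' loewnerDomain ((exn δ N k p S ψn n).W A)
          ((exn δ N k p S ψn n).c A j),
        frm (δ n) v₀ (tip (p n) (k n) A j (δ n)) ∈ closure C → ∀ ε > 0,
        ∃ w ∈ loewnerDomain ((exn δ N k p S ψn n).W A) ((exn δ N k p S ψn n).c A j),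
          psr (δ n) v₀ (ψn n) w ∈ C ∧
          dist (pos ((exn δ N k p S ψn n).W A) ((exn δ N k p S ψn n).c A j) w) (-1) < ε) := by
  obtain ⟨e, he, he1, he2⟩ := exists_small hν
  filter_upwards [good_ev H.appr, H756.drv H hT hR zero_lt_one, H756.drv H le_rfl le_rfl he,
    side_succ H (T := T + 1) (R := R + 1) (by linarith) (by linarith) hν,
    side_succ H (T := 0 + e) (R := 0 + e) (by linarith) (by linarith) (half_pos hν)]
    with n h2 hdrv hdrv0 hside hside0 A j hB v₀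
  obtain ⟨a1, a2, a3, a4, a5⟩ := H.appr.1 n
  obtain ⟨hA, hj, hb⟩ := hB
  have hA' : A ⊆ edges (S n) := (mem_Qc (p := p n) (k := k n) (δ := δ n)).1 hA
  have hwf := H411.DC.expl_wf (H756.wf_of H h2) (H.uni n h2)
  have hc0 : (exn δ N k p S ψn n).c A 0 = 0 := hwf.c0 A hA
  obtain ⟨hd, hW0⟩ := hdrv A hA j hj hb
  have hdom : psr (δ n) v₀ (ψn n) '' loewnerDomain ((exn δ N k p S ψn n).W A)
      ((exn δ N k p S ψn n).c A j) = frm (δ n) v₀ '' Dn (p n) (k n) (S n) A j (δ n) := by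
    rw [psr_image, dom_eq H h2 hA' hj]
    rfl
  refine ⟨?_, hdom, ?_, ?_⟩
  · rw [hdom]
    exact pc_frm a1 a4 a5 v₀
  · intro c w hw hS
    have hS' : ψn n w ∈ Sd (p n) (k n) (S n) A j (δ n) c := by
      obtain ⟨z, hz, hez⟩ := hS
      rw [psr_eq] at hez
      rwa [← frm_inj (δ n) v₀ hez]
    cases j with
    | succ τ => exact hside A hA τ hj hd c w hw hS'
    | zero =>
      have h1K : 0 + 1 < (exn δ N k p S ψn n).K A := by
        change 0 + 1 < len (p n) (k n) A + 2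
        omega
      have hV0 : (exn δ N k p S ψn n).V A 0 = 0 := by
        have h : (exn δ N k p S ψn n).V A 0 =
          (exn δ N k p S ψn n).W A ((exn δ N k p S ψn n).c A 0) := rfl
        rw [h, hc0, hW0]
      obtain ⟨hd1, -⟩ := hdrv0 A hA (0 + 1) h1K (fun i hi => by
        have hi0 : i = 0 := by omega
        subst hi0
        rw [hc0, hV0]
        simp)
      have hwH : w ∈ HH := by
        rw [hc0, dom_zero'] at hw
        exact hw
      rw [hc0]
      rw [zero_add] at hd1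
      refine side_zero hW0 hd1 he1 he2 (sg c) hwH fun hin => ?_
      exact hside0 A hA 0 h1K (by simpa using hd1) c w hin hS'
  · intro C hC hcl ε hε
    cases j with
    | succ τ =>
      have hτ' : τ ≤ len (p n) (k n) A := by
        have h : τ + 1 < len (p n) (k n) A + 2 := hj
        omega
      exact tip_pos a4 a5 h2 hA' a1 (H.isU n h2) hτ' v₀ hC hcl hε
    | zero =>
      rw [hc0] at hC ⊢
      exact tip_zero a4 a5 a1 (H.isU n h2) hW0 v₀ hC hcl hε

end Vale.Agent.P167.H653.St
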