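import Vale.Agent.P167.H653.St.Pc
import Vale.Agent.P167.SG.Cls1
import Vale.Agent.P167.H72.LabF

/-!
# P167, general `q`, [HST-ST], part 2: the tip
-/

set_option autoImplicit false
set_option linter.unusedSimpArgs false
set_option linter.unusedVariables false

namespace Vale.Agent.P167.H653.St

open Set Metric Filter Topology
open Vale.Agent.P167.E6 Vale.Agent.P167.E2
open Vale.Agent.P167.H411 (Qc Qc_wf mem_Qc DC)
open Vale.Agent.P153.R2.DET (Uni HC)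
open Vale.Agent.P153.R2.R1 (IsU mb mb_continuousOn)
open Vale.Agent.P153.R2.L1 (HH)
open Vale.Agent.P153.R2.L2 (Crv gg ww cc drv)
open Vale.Agent.P167.H327 (ph ph_eq ph_cont ph_mem pos_HC)
open Vale.Agent.P164 (loewnerDomain Zf)
open Vale.Agent.P167.H446.G (psr)
open Vale.Agent.P167.H713.Q (Dn tip)
open Vale.Agent.P167.SG (pos)
open Vale.Agent.P167.H72 (gam uni6 crv6 psi_gam gam_mem gam_zero Hm tau_lt zf_gg tip_lim)

theorem mb_zero : mb 1 Complex.I 0 = -1 := by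
  unfold mb
  simp

/-- `mb` near `0`. -/
theorem mb_tendsto {α : Type*} {l : Filter α} {G : α → ℂ} (h0 : Tendsto G l (𝓝 0))
    (h1 : ∀ᶠ x in l, 0 ≤ (G x).im) : Tendsto (fun x => mb 1 Complex.I (G x)) l (𝓝 (-1)) := by
  have h3 : ContinuousWithinAt (mb 1 Complex.I) {z | 0 ≤ z.im} 0 :=
    mb_continuousOn (c := Complex.I) (by simp) _ (by simp)
  have h4 : Tendsto G l (𝓝[{z | 0 ≤ z.im}] 0) := tendsto_nhdsWithin_iff.2 ⟨h0, h1⟩
  have h5 := h3.tendsto.comp h4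
  rw [mb_zero] at h5
  exact h5

section

variable {n : ℕ} {p : ZMod n → ℤ × ℤ} {k : ℕ} {S : Finset (ℤ × ℤ)} {A : Finset (Sym2 (ℤ × ℤ))}
  {j : ℕ} {δ : ℝ} {ψ : ℂ → ℂ} {b x₀ : ℂ} {W : ℝ → ℝ} {t : ℝ}

/-- The tip, abstract form: `x₀` is the preimage of the tip, and the coordinate tends to `0` at
`x₀`. -/
theorem tip_of (hU : Uni ψ b) (ht : 0 ≤ t) (v₀ : ℤ × ℤ) {tp : ℂ} (hx : x₀ ∈ HC) (htp : ψ x₀ = tp)
    (hlim : Tendsto (fun w => Zf W w t) (𝓝[loewnerDomain W t] x₀) (𝓝 0)) {C : Set ℂ}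
    (hC : C ⊆ psr δ v₀ ψ '' loewnerDomain W t) (hcl : frm δ v₀ tp ∈ closure C) {ε : ℝ}
    (hε : 0 < ε) :
    ∃ w ∈ loewnerDomain W t, psr δ v₀ ψ w ∈ C ∧ dist (pos W t w) (-1) < ε := by
  set U : Set ℂ := frm δ v₀ ⁻¹' C with hUdef
  have hUC : frm δ v₀ '' U = C := by
    rw [hUdef, image_preimage_eq_of_subset]
    intro c hc
    obtain ⟨z, -, hz⟩ := hC hc
    exact ⟨_, hz⟩
  have hUcl : tp ∈ closure U := by
    have h1 : frmH δ v₀ '' closure U = closure (frmH δ v₀ '' U) := (frmH δ v₀).image_closure U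
    rw [frmH_eq, hUC] at h1
    rw [← h1] at hcl
    obtain ⟨z, hz, he⟩ := hcl
    rwa [frm_inj δ v₀ he] at hz
  have hUL : U ⊆ ψ '' loewnerDomain W t := by
    intro y hy
    obtain ⟨z, hz, he⟩ := hC hy
    rw [H653.St.psr_eq] at he
    exact ⟨z, hz, frm_inj δ v₀ he⟩
  have hLH : ∀ w ∈ loewnerDomain W t, 0 < w.im := fun w hw =>
    Vale.Agent.P164.im_pos_of_dom ht hw
  have hne : (𝓝[U] tp).NeBot := mem_closure_iff_nhdsWithin_neBot.1 hUcl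
  have hph : ∀ y ∈ U, ph ψ y ∈ loewnerDomain W t ∧ ψ (ph ψ y) = y := by
    intro y hy
    obtain ⟨z, hz, rfl⟩ := hUL hy
    rw [ph_eq hU (pos_HC (hLH z hz))]
    exact ⟨hz, rfl⟩
  have hUH : U ⊆ ψ '' HC := fun y hy => by
    obtain ⟨z, hz, rfl⟩ := hUL hy
    exact ⟨z, pos_HC (hLH z hz), rfl⟩
  have h1 : Tendsto (ph ψ) (𝓝[U] tp) (𝓝 x₀) := by
    have h2 := (ph_cont hU) tp ⟨x₀, hx, htp⟩
    have h3 : ph ψ tp = x₀ := by rw [← htp, ph_eq hU hx]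
    unfold ContinuousWithinAt at h2
    rw [h3] at h2
    exact h2.mono_left (nhdsWithin_mono _ hUH)
  have h2 : Tendsto (ph ψ) (𝓝[U] tp) (𝓝[loewnerDomain W t] x₀) :=
    tendsto_nhdsWithin_iff.2 ⟨h1, by
      filter_upwards [self_mem_nhdsWithin] with y hy
      exact (hph y hy).1⟩
  have h3 : Tendsto (fun y => mb 1 Complex.I (Zf W (ph ψ y) t)) (𝓝[U] tp) (𝓝 (-1)) := by
    refine mb_tendsto (hlim.comp h2) ?_
    filter_upwards [self_mem_nhdsWithin] with y hy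
    exact (Vale.Agent.P164.Zf_im_pos ht (hph y hy).1).le
  have h4 : ∀ᶠ y in 𝓝[U] tp, dist (mb 1 Complex.I (Zf W (ph ψ y) t)) (-1) < ε :=
    Metric.tendsto_nhds.1 h3 _ hε
  obtain ⟨y, hy1, hy2⟩ := (h4.and self_mem_nhdsWithin).exists
  refine ⟨ph ψ y, (hph y hy2).1, ?_, hy1⟩
  rw [H653.St.psr_eq, (hph y hy2).2]
  exact hy2

/-- **The tip at a positive time.** -/
theorem tip_pos (hp : IsPolygon p) (hS : Encloses p S) (hk : k + 1 < n) (hA : A ⊆ edges S)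
    (hδ : 0 < δ) (hU : IsU ψ (Om δ S) (aM p δ) (bM p k δ)) {τ : ℕ} (hτ : τ ≤ len p k A)
    (v₀ : ℤ × ℤ) {C : Set ℂ}
    (hC : C ⊆ psr δ v₀ ψ '' loewnerDomain (((Qc p k δ S).expl ψ).W A)
      (((Qc p k δ S).expl ψ).c A (τ + 1)))
    (hcl : frm δ v₀ (tip p k A (τ + 1) δ) ∈ closure C) {ε : ℝ} (hε : 0 < ε) :
    ∃ w ∈ loewnerDomain (((Qc p k δ S).expl ψ).W A) (((Qc p k δ S).expl ψ).c A (τ + 1)),
      psr δ v₀ ψ w ∈ C ∧ dist (pos (((Qc p k δ S).expl ψ).W A)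
        (((Qc p k δ S).expl ψ).c A (τ + 1)) w) (-1) < ε := by
  have hCr : Crv (gam p k δ S ψ A) ((Qc p k δ S).K A) := crv6 hp hS hk hA hδ hU
  have hK : τ + 1 < (Qc p k δ S).K A := by
    change τ + 1 < len p k A + 2
    omega
  have hpos : 0 < (Qc p k δ S).K A := by omega
  have hK' : ((τ : ℝ) + 1) + 1 ≤ (Qc p k δ S).K A := by exact_mod_cast hK
  have hτ0 : (0 : ℝ) ≤ τ := Nat.cast_nonneg _
  obtain ⟨hWc, hsg⟩ := DC.sgen (Q := Qc p k δ S) (ψ := ψ) (h := A) hCr hpos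
  have hce := DC.c_lt (Q := Qc p k δ S) (ψ := ψ) (h := A) hK
  have hWe := DC.W_eq (Q := Qc p k δ S) (ψ := ψ) (h := A) hCr hpos
  have hcast : ((τ + 1 : ℕ) : ℝ) = (τ : ℝ) + 1 := by push_cast; rfl
  rw [hcast] at hce
  have htip : tip p k A (τ + 1) δ = pl p k δ A ((τ : ℝ) + 1) := by
    unfold tip
    rw [hcast]
  rw [htip] at hcl
  set W := ((Qc p k δ S).expl ψ).W A with hW
  set c := ((Qc p k δ S).expl ψ).c A (τ + 1) with hc
  have hdom : loewnerDomain W c = Hm p k δ S ψ A τ := by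
    rw [hce, hsg.dom ((τ : ℝ) + 1) ⟨by linarith, by linarith⟩]
    rfl
  have hzf : ∀ z ∈ Hm p k δ S ψ A τ, Zf W z c =
      gg (gam p k δ S ψ A) ((τ : ℝ) + 1) z - ww (gam p k δ S ψ A) ((τ : ℝ) + 1) := by
    intro z hz
    rw [hWe, hce]
    exact zf_gg hCr (by linarith) (by linarith) (by linarith) hz
  have hτ1 : (τ : ℝ) + 1 < nu p k A := by
    have h := (tau_lt (p := p) (k := k) (A := A) hτ).2
    exact h
  have hc0 : 0 ≤ c := by
    rw [hce]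
    exact hCr.cap_nonneg ⟨by linarith, by linarith⟩
  refine tip_of (uni6 hp hS hδ hU) hc0 v₀
    (gam_mem hp hS hk hA hδ hU (by linarith : (0 : ℝ) ≤ (τ : ℝ) + 1) hτ1)
    (psi_gam hp hS hk hA hδ hU (by linarith) hτ1) ?_ hC hcl hε
  rw [hdom]
  have h1 := tip_lim hCr (t := (τ : ℝ) + 1) ⟨by linarith, by linarith⟩
  have h2 : Tendsto (fun z => gg (gam p k δ S ψ A) ((τ : ℝ) + 1) z -
      ((ww (gam p k δ S ψ A) ((τ : ℝ) + 1) : ℝ) : ℂ))
      (𝓝[Hm p k δ S ψ A τ] (gam p k δ S ψ A ((τ : ℝ) + 1))) (𝓝 0) := by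
    have h3 := h1.sub_const ((ww (gam p k δ S ψ A) ((τ : ℝ) + 1) : ℝ) : ℂ)
    rw [sub_self] at h3
    exact h3
  refine h2.congr' ?_
  filter_upwards [self_mem_nhdsWithin] with z hz
  exact (hzf z hz).symm

/-- **The tip at time `0`.** -/
theorem tip_zero (hp : IsPolygon p) (hS : Encloses p S) (hδ : 0 < δ)
    (hU : IsU ψ (Om δ S) (aM p δ) (bM p k δ)) (hW : W 0 = 0) (v₀ : ℤ × ℤ) {C : Set ℂ}
    (hC : C ⊆ psr δ v₀ ψ '' loewnerDomain W 0) (hcl : frm δ v₀ (tip p k A 0 δ) ∈ closure C)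
    {ε : ℝ} (hε : 0 < ε) :
    ∃ w ∈ loewnerDomain W 0, psr δ v₀ ψ w ∈ C ∧ dist (pos W 0 w) (-1) < ε := by
  have htip : tip p k A 0 δ = aM p δ := by
    unfold tip
    rw [Nat.cast_zero, pl_zero]
  rw [htip] at hcl
  refine tip_of (x₀ := 0) (uni6 hp hS hδ hU) le_rfl v₀ (by simp [HC]) hU.zero ?_ hC hcl hε
  rw [H756.dom_zero']
  have h1 : Tendsto (fun z : ℂ => z) (𝓝[HH] (0 : ℂ)) (𝓝 0) := tendsto_id.mono_left nhdsWithin_le_nhds
  refine h1.congr' ?_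
  filter_upwards [self_mem_nhdsWithin] with z hz
  rw [Vale.Agent.P164.Zf_zero hz, hW, Complex.ofReal_zero, sub_zero]

end

end Vale.Agent.P167.H653.St
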